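import Mathlib

open Finset

namespace Vale.Agent.Lib.P047b

variable {n : ℕ}

/-- The sign of a unit of `ℤ` as a real number. -/
noncomputable def sg (u : ℤˣ) : ℝ := ((u : ℤ) : ℝ)

@[simp] lemma sg_one : sg 1 = 1 := by simp [sg]
@[simp] lemma sg_neg_one : sg (-1) = -1 := by simp [sg]
@[simp] lemma sg_neg (u : ℤˣ) : sg (-u) = - sg u := by simp [sg]

lemma sg_cases (u : ℤˣ) : sg u = 1 ∨ sg u = -1 := by
  rcases Int.units_eq_one_or u with rfl | rfl <;> simp

lemma sg_sq (u : ℤˣ) : sg u ^ 2 = 1 := by
  rcases sg_cases u with h | h <;> rw [h] <;> norm_num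

lemma sum_units (g : ℤˣ → ℝ) : ∑ u, g u = g 1 + g (-1) := by
  have : (univ : Finset ℤˣ) = {1, -1} := by decide
  rw [this, sum_pair (by decide)]

/-- Character of a subset. -/
noncomputable def chi (S : Finset (Fin n)) (x : Fin n → ℤˣ) : ℝ := ∏ i ∈ S, sg (x i)

/-- The Fourier coefficient of a real function on the cube. -/
noncomputable def hatR (f : (Fin n → ℤˣ) → ℝ) (S : Finset (Fin n)) : ℝ :=
  (∑ x, f x * chi S x) / 2 ^ n

lemma sum_chi_mul (x y : Fin n → ℤˣ) :
    ∑ S : Finset (Fin n), chi S y * chi S x = if y = x then 2 ^ n else 0 := by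
  have h1 : ∀ S : Finset (Fin n), chi S y * chi S x = ∏ i ∈ S, (sg (y i) * sg (x i)) := by
    intro S
    simp only [chi, prod_mul_distrib]
  simp_rw [h1]
  have h2 := (Finset.prod_one_add (s := (univ : Finset (Fin n)))
    (f := fun i => sg (y i) * sg (x i)))
  rw [powerset_univ] at h2
  rw [← h2]
  split_ifs with h
  · subst h
    have : ∀ i, 1 + sg (y i) * sg (y i) = 2 := by
      intro i
      have := sg_sq (y i)
      nlinarith
    simp [this]
  · obtain ⟨i, hi⟩ : ∃ i, y i ≠ x i := by
      by_contra hcon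
      push Not at hcon
      exact h (funext hcon)
    apply Finset.prod_eq_zero (mem_univ i)
    rcases Int.units_eq_one_or (y i) with h1 | h1 <;>
      rcases Int.units_eq_one_or (x i) with h2 | h2 <;>
      simp_all

/-- Fourier inversion on the cube. -/
lemma fourier_inversion (f : (Fin n → ℤˣ) → ℝ) (x : Fin n → ℤˣ) :
    f x = ∑ S, hatR f S * chi S x := by
  simp only [hatR, sum_div, sum_mul]
  rw [sum_comm]
  have h : ∀ y : Fin n → ℤˣ, ∑ S : Finset (Fin n), f y * chi S y / 2 ^ n * chi S x =
      f y * (∑ S : Finset (Fin n), chi S y * chi S x) / 2 ^ n := by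
    intro y
    rw [mul_sum, sum_div]
    refine sum_congr rfl fun S _ => ?_
    ring
  simp_rw [h, sum_chi_mul]
  rw [Finset.sum_eq_single x (fun y _ hy => by simp [hy]) (fun h => absurd (mem_univ x) h)]
  simp

/-! ### The biased measure -/

/-- Product over the cube of a coordinatewise function. -/
lemma sum_prod_coord (g : Fin n → ℤˣ → ℝ) :
    ∑ x : Fin n → ℤˣ, ∏ i, g i (x i) = ∏ i, ∑ u, g i u := by
  rw [Finset.prod_univ_sum, Fintype.piFinset_univ]

section biased

variable (t r : ℝ)

/-- Single-coordinate weight. -/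
noncomputable def m1 (u : ℤˣ) : ℝ := (1 + t * sg u) / 2

/-- Normalized single-coordinate variable. -/
noncomputable def ph (u : ℤˣ) : ℝ := (sg u - t) / r

/-- The biased product weight. -/
noncomputable def mu (x : Fin n → ℤˣ) : ℝ := ∏ i, m1 t (x i)

/-- Product of the normalized variables over a subset. -/
noncomputable def phiS (S : Finset (Fin n)) (x : Fin n → ℤˣ) : ℝ := ∏ i ∈ S, ph t r (x i)

variable {t r}

lemma m1_pos (ht0 : -1 < t) (ht1 : t < 1) (u : ℤˣ) : 0 < m1 t u := by
  rcases sg_cases u with h | h <;> simp only [m1, h] <;> linarith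

lemma mu_pos (ht0 : -1 < t) (ht1 : t < 1) (x : Fin n → ℤˣ) : 0 < mu t x :=
  prod_pos fun i _ => m1_pos ht0 ht1 _

lemma sum_m1 : ∑ u, m1 t u = 1 := by
  rw [sum_units]
  simp only [m1, sg_one, sg_neg_one]
  ring

lemma sum_m1_ph (hr : r ≠ 0) : ∑ u, m1 t u * ph t r u = 0 := by
  rw [sum_units]
  simp only [m1, ph, sg_one, sg_neg_one]
  field_simp
  ring

lemma sum_m1_ph_sq (hr : r ≠ 0) (hr2 : r ^ 2 = 1 - t ^ 2) :
    ∑ u, m1 t u * (ph t r u * ph t r u) = 1 := by
  rw [sum_units]
  simp only [m1, ph, sg_one, sg_neg_one]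
  field_simp
  rw [hr2]
  ring

/-- Orthonormality of the biased characters. -/
lemma orth (hr : r ≠ 0) (hr2 : r ^ 2 = 1 - t ^ 2) (A B : Finset (Fin n)) :
    ∑ x, mu t x * (phiS t r A x * phiS t r B x) = if A = B then 1 else 0 := by
  have h1 : ∀ x : Fin n → ℤˣ, mu t x * (phiS t r A x * phiS t r B x) =
      ∏ i, (m1 t (x i) * ((if i ∈ A then ph t r (x i) else 1) *
        (if i ∈ B then ph t r (x i) else 1))) := by
    intro x
    simp only [mu, phiS, prod_mul_distrib]
    congr 2
    · rw [prod_ite_mem, univ_inter]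
    · rw [prod_ite_mem, univ_inter]
  simp_rw [h1]
  rw [sum_prod_coord (fun i u => m1 t u * ((if i ∈ A then ph t r u else 1) *
        (if i ∈ B then ph t r u else 1)))]
  split_ifs with hAB
  · subst hAB
    apply prod_eq_one
    intro i _
    by_cases hi : i ∈ A
    · simp only [hi, if_true]
      exact sum_m1_ph_sq hr hr2
    · simp only [hi, if_false, mul_one]
      exact sum_m1
  · obtain ⟨i, hi⟩ : ∃ i, ¬ (i ∈ A ↔ i ∈ B) := by
      by_contra hcon
      push Not at hcon
      exact hAB (Finset.ext hcon)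
    apply prod_eq_zero (mem_univ i)
    by_cases hA : i ∈ A
    · have hB : i ∉ B := fun hB => hi ⟨fun _ => hB, fun _ => hA⟩
      simp only [hA, hB, if_true, if_false, mul_one]
      exact sum_m1_ph hr
    · have hB : i ∈ B := by
        by_contra hB
        exact hi ⟨fun h => absurd h hA, fun h => absurd h hB⟩
      simp only [hA, hB, if_true, if_false, one_mul]
      exact sum_m1_ph hr

/-- Bilinear form in biased characters. -/
lemma E_bilin (hr : r ≠ 0) (hr2 : r ^ 2 = 1 - t ^ 2) (b e : Finset (Fin n) → ℝ) :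
    ∑ x, mu t x * ((∑ S, b S * phiS t r S x) * (∑ T, e T * phiS t r T x)) =
      ∑ S, b S * e S := by
  have h1 : ∀ x : Fin n → ℤˣ,
      mu t x * ((∑ S, b S * phiS t r S x) * (∑ T, e T * phiS t r T x)) =
      ∑ S, ∑ T, b S * e T * (mu t x * (phiS t r S x * phiS t r T x)) := by
    intro x
    rw [sum_mul_sum, mul_sum]
    refine sum_congr rfl fun S _ => ?_
    rw [mul_sum]
    refine sum_congr rfl fun T _ => ?_
    ring
  simp_rw [h1]
  rw [sum_comm]
  refine sum_congr rfl fun S _ => ?_
  rw [sum_comm]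
  simp_rw [← mul_sum, orth hr hr2]
  simp

lemma sg_eq_add (hr : r ≠ 0) (u : ℤˣ) : sg u = r * ph t r u + t := by
  simp only [ph]
  field_simp
  ring

/-- Coefficients of a function in the biased basis. -/
noncomputable def cS (t r : ℝ) (a : Finset (Fin n) → ℝ) (S : Finset (Fin n)) : ℝ :=
  ∑ U, if S ⊆ U then a U * r ^ S.card * t ^ (U.card - S.card) else 0

lemma chi_expand (hr : r ≠ 0) (U : Finset (Fin n)) (x : Fin n → ℤˣ) :
    chi U x = ∑ S, (if S ⊆ U then r ^ S.card * t ^ (U.card - S.card) else 0) * phiS t r S x := by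
  have h1 : chi U x = ∏ i ∈ U, (r * ph t r (x i) + t) := by
    simp only [chi]
    exact prod_congr rfl fun i _ => sg_eq_add hr _
  rw [h1, Finset.prod_add]
  have h2 : ∀ S ∈ U.powerset, (∏ i ∈ S, (r * ph t r (x i))) * ∏ _i ∈ U \ S, t =
      r ^ S.card * t ^ (U.card - S.card) * phiS t r S x := by
    intro S hS
    have hS' := mem_powerset.mp hS
    rw [prod_mul_distrib, prod_const, prod_const, card_sdiff_of_subset hS']
    simp only [phiS]
    ring
  rw [sum_congr rfl h2]
  have h3 : U.powerset = univ.filter (fun S => S ⊆ U) := by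
    ext S; simp
  rw [h3, sum_filter]
  refine sum_congr rfl fun S _ => ?_
  split_ifs <;> simp

/-- Expansion of a function in the biased basis. -/
lemma expand (hr : r ≠ 0) (f : (Fin n → ℤˣ) → ℝ) (x : Fin n → ℤˣ) :
    f x = ∑ S, cS t r (hatR f) S * phiS t r S x := by
  conv_lhs => rw [fourier_inversion f x]
  simp_rw [chi_expand (t := t) hr, mul_sum]
  rw [sum_comm]
  refine sum_congr rfl fun S _ => ?_
  simp only [cS, sum_mul]
  refine sum_congr rfl fun U _ => ?_
  split_ifs <;> ring

/-! ### The influence inequality -/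

/-- Flip one coordinate. -/
def flip (i : Fin n) (x : Fin n → ℤˣ) : Fin n → ℤˣ := Function.update x i (- x i)

lemma phiS_flip {i : Fin n} {A : Finset (Fin n)} (hi : i ∉ A) (x : Fin n → ℤˣ) :
    phiS t r A (flip i x) = phiS t r A x := by
  simp only [phiS, flip]
  refine prod_congr rfl fun j hj => ?_
  have : j ≠ i := fun h => hi (h ▸ hj)
  rw [Function.update_of_ne this]

/-- Reindexing subsets through `insert`. -/
lemma sum_insert_eq (i : Fin n) (h : Finset (Fin n) → ℝ) :
    ∑ A, (if i ∉ A then h (insert i A) else 0) = ∑ S, (if i ∈ S then h S else 0) := by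
  rw [← sum_filter, ← sum_filter]
  refine Finset.sum_nbij' (fun A => insert i A) (fun S => S.erase i) ?_ ?_ ?_ ?_ ?_
  · intro A hA; simp
  · intro S hS; simp
  · intro A hA
    simp only [mem_filter, mem_univ, true_and] at hA
    exact erase_insert hA
  · intro S hS
    simp only [mem_filter, mem_univ, true_and] at hS
    exact insert_erase hS
  · intro A hA; rfl

/-- The derivative field in the biased basis. -/
noncomputable def kI (t r : ℝ) (c : Finset (Fin n) → ℝ) (i : Fin n) (x : Fin n → ℤˣ) : ℝ :=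
  ∑ A, (if i ∉ A then c (insert i A) else 0) * phiS t r A x

lemma phiS_insert {i : Fin n} {A : Finset (Fin n)} (hi : i ∉ A) (x : Fin n → ℤˣ) :
    phiS t r (insert i A) x = ph t r (x i) * phiS t r A x := by
  simp only [phiS]
  rw [prod_insert hi]

/-- Splitting of an expansion according to coordinate `i`. -/
lemma split_expansion (c : Finset (Fin n) → ℝ) (i : Fin n) (x : Fin n → ℤˣ) :
    ∑ S, c S * phiS t r S x =
      ∑ A, (if i ∉ A then c A else 0) * phiS t r A x + ph t r (x i) * kI t r c i x := by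
  have h1 : ph t r (x i) * kI t r c i x = ∑ S, if i ∈ S then c S * phiS t r S x else 0 := by
    rw [← sum_insert_eq i (fun S => c S * phiS t r S x), kI, mul_sum]
    refine sum_congr rfl fun A _ => ?_
    by_cases hA : i ∈ A
    · simp [hA]
    · simp only [hA, not_false_eq_true, if_true]
      rw [phiS_insert hA]
      ring
  rw [h1, ← sum_add_distrib]
  refine sum_congr rfl fun S _ => ?_
  by_cases hS : i ∈ S <;> simp [hS]

/-- The key pointwise fact: for a Boolean function the field `kI` is `0` or `± r`. -/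
lemma kI_pointwise (hr : 0 < r) {f : (Fin n → ℤˣ) → ℝ} (hf : ∀ x, f x = 1 ∨ f x = -1)
    (i : Fin n) (x : Fin n → ℤˣ) :
    r * kI t r (cS t r (hatR f)) i x ≤ kI t r (cS t r (hatR f)) i x ^ 2 := by
  set c := cS t r (hatR f) with hc
  have e1 := (expand (t := t) hr.ne' f x).trans (split_expansion c i x)
  have e2 := (expand (t := t) hr.ne' f (flip i x)).trans (split_expansion c i (flip i x))
  have hsame1 : ∑ A, (if i ∉ A then c A else 0) * phiS t r A (flip i x) =
      ∑ A, (if i ∉ A then c A else 0) * phiS t r A x := by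
    refine sum_congr rfl fun A _ => ?_
    by_cases hA : i ∈ A
    · simp [hA]
    · rw [phiS_flip hA]
  have hsame2 : kI t r c i (flip i x) = kI t r c i x := by
    simp only [kI]
    refine sum_congr rfl fun A _ => ?_
    by_cases hA : i ∈ A
    · simp [hA]
    · rw [phiS_flip hA]
  rw [hsame1, hsame2] at e2
  have hxi : flip i x i = - x i := by simp [flip]
  rw [hxi] at e2
  set k := kI t r c i x with hk
  have hdiff : f x - f (flip i x) = k * (2 * sg (x i) / r) := by
    rw [e1, e2]
    simp only [ph, sg_neg]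
    field_simp
    ring
  have hk' : k = (f x - f (flip i x)) * (r * sg (x i) / 2) := by
    rw [hdiff]
    have h2 := sg_sq (x i)
    field_simp
    rw [h2, mul_one]
  rcases hf x with h1 | h1 <;> rcases hf (flip i x) with h2 | h2 <;>
    rcases sg_cases (x i) with h3 | h3 <;> rw [hk', h1, h2, h3] <;> nlinarith [sq_nonneg r]

end biased

open Polynomial

/-- The one-variable polynomial attached to coefficient data. -/
noncomputable def polyP (a : Finset (Fin n) → ℝ) : ℝ[X] := ∑ U, C (a U) * X ^ U.card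

lemma polyP_eval (a : Finset (Fin n) → ℝ) (t : ℝ) :
    (polyP a).eval t = ∑ U, a U * t ^ U.card := by
  simp [polyP, eval_finsetSum]

lemma polyP_deriv_eval (a : Finset (Fin n) → ℝ) (t : ℝ) :
    (polyP a).derivative.eval t = ∑ U, a U * (U.card * t ^ (U.card - 1)) := by
  simp only [polyP, derivative_sum, eval_finsetSum, derivative_C_mul, derivative_X_pow]
  refine sum_congr rfl fun U _ => ?_
  simp

lemma polyP_natDegree {a : Finset (Fin n) → ℝ} {d : ℕ} (h : ∀ S, d < S.card → a S = 0) :
    (polyP a).natDegree ≤ d := by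
  apply natDegree_sum_le_of_forall_le
  intro U _
  by_cases hU : d < U.card
  · rw [h U hU]; simp
  · exact (natDegree_C_mul_X_pow_le _ _).trans (not_lt.mp hU)

lemma cS_empty (t r : ℝ) (a : Finset (Fin n) → ℝ) : cS t r a ∅ = (polyP a).eval t := by
  simp [cS, polyP_eval]

lemma sum_cS_singleton (t r : ℝ) (a : Finset (Fin n) → ℝ) :
    ∑ i, cS t r a {i} = r * (polyP a).derivative.eval t := by
  simp only [cS, polyP_deriv_eval]
  rw [sum_comm, mul_sum]
  refine sum_congr rfl fun U _ => ?_
  have h : ∀ i : Fin n, (if ({i} : Finset (Fin n)) ⊆ U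
      then a U * r ^ ({i} : Finset (Fin n)).card * t ^ (U.card - ({i} : Finset (Fin n)).card) else 0) =
      if i ∈ U then a U * r * t ^ (U.card - 1) else 0 := by
    intro i
    simp
  simp_rw [h]
  rw [Finset.sum_ite_mem, univ_inter, sum_const, nsmul_eq_mul]
  ring

/-- The biased coefficient vanishes above the degree. -/
lemma cS_eq_zero {t r : ℝ} {a : Finset (Fin n) → ℝ} {d : ℕ} (h : ∀ S, d < S.card → a S = 0)
    {S : Finset (Fin n)} (hS : d < S.card) : cS t r a S = 0 := by
  apply sum_eq_zero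
  intro U _
  split_ifs with hSU
  · rw [h U (hS.trans_le (card_le_card hSU))]
    ring
  · rfl

section main

variable {t r : ℝ}

/-- Constant function in the biased basis. -/
lemma sum_delta_phiS (x : Fin n → ℤˣ) :
    (∑ T : Finset (Fin n), (if T = ∅ then (1 : ℝ) else 0) * phiS t r T x) = 1 := by
  rw [Finset.sum_eq_single ∅]
  · simp [phiS]
  · intro T _ hT; simp [hT]
  · intro h; exact absurd (mem_univ _) h

lemma E_one (hr : r ≠ 0) (hr2 : r ^ 2 = 1 - t ^ 2) (b : Finset (Fin n) → ℝ) :
    ∑ x, mu t x * (∑ S, b S * phiS t r S x) = b ∅ := by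
  have h := E_bilin (t := t) hr hr2 b (fun T => if T = ∅ then (1 : ℝ) else 0)
  simp_rw [sum_delta_phiS, mul_one] at h
  rw [h]
  simp

lemma sum_mu (hr : r ≠ 0) (hr2 : r ^ 2 = 1 - t ^ 2) : ∑ x : Fin n → ℤˣ, mu t x = 1 := by
  have h := E_one (t := t) hr hr2 (fun T : Finset (Fin n) => if T = ∅ then (1 : ℝ) else 0)
  simp_rw [sum_delta_phiS, mul_one] at h
  simpa using h

/-- The polynomial computes the biased mean. -/
lemma eval_eq_mean (hr : r ≠ 0) (hr2 : r ^ 2 = 1 - t ^ 2) (f : (Fin n → ℤˣ) → ℝ) :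
    (polyP (hatR f)).eval t = ∑ x, mu t x * f x := by
  have h := E_one (t := t) hr hr2 (cS t r (hatR f))
  rw [cS_empty] at h
  rw [← h]
  refine sum_congr rfl fun x _ => ?_
  rw [← expand hr f x]

/-- The influence inequality: the key place where the Boolean property enters. -/
theorem influence_ineq (hr : 0 < r) (hr2 : r ^ 2 = 1 - t ^ 2)
    {f : (Fin n → ℤˣ) → ℝ} (hf : ∀ x, f x = 1 ∨ f x = -1) {d : ℕ}
    (hdeg : ∀ S, d < S.card → hatR f S = 0) (ht0 : -1 < t) (ht1 : t < 1) :
    (1 - t ^ 2) * (polyP (hatR f)).derivative.eval t ≤ d * (1 - (polyP (hatR f)).eval t ^ 2) := by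
  set c := cS t r (hatR f) with hc
  have hexp : ∀ x, f x = ∑ S, c S * phiS t r S x := fun x => expand hr.ne' f x
  have hsq : ∑ S, c S * c S = 1 := by
    have h := E_bilin (t := t) hr.ne' hr2 c c
    rw [← h]
    simp_rw [← hexp]
    have h2 : ∀ x, f x * f x = 1 := by
      intro x
      rcases hf x with h3 | h3 <;> rw [h3] <;> norm_num
    simp_rw [h2, mul_one]
    exact sum_mu hr.ne' hr2
  -- the two moments of the field
  have hk1 : ∀ i, ∑ x, mu t x * kI t r c i x = c {i} := by
    intro i
    have h := E_one (t := t) hr.ne' hr2 (fun A => if i ∉ A then c (insert i A) else 0)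
    simpa [kI] using h
  have hk2 : ∀ i, ∑ x, mu t x * (kI t r c i x * kI t r c i x) =
      ∑ S, if i ∈ S then c S * c S else 0 := by
    intro i
    have h := E_bilin (t := t) hr.ne' hr2 (fun A => if i ∉ A then c (insert i A) else 0)
      (fun A => if i ∉ A then c (insert i A) else 0)
    rw [← sum_insert_eq i (fun S => c S * c S)]
    simp only [kI]
    rw [h]
    refine sum_congr rfl fun A _ => ?_
    by_cases hA : i ∈ A <;> simp [hA]
  have hpt : ∀ i, r * c {i} ≤ ∑ S, if i ∈ S then c S * c S else 0 := by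
    intro i
    rw [← hk1, ← hk2, mul_sum]
    refine sum_le_sum fun x _ => ?_
    have h1 := kI_pointwise (t := t) hr hf i x
    have h2 := (mu_pos ht0 ht1 x).le
    rw [← hc] at h1
    calc r * (mu t x * kI t r c i x) = mu t x * (r * kI t r c i x) := by ring
      _ ≤ mu t x * (kI t r c i x ^ 2) := mul_le_mul_of_nonneg_left h1 h2
      _ = mu t x * (kI t r c i x * kI t r c i x) := by ring
  have hsum : r * ∑ i, c {i} ≤ ∑ S : Finset (Fin n), (S.card : ℝ) * (c S * c S) := by
    rw [mul_sum]
    refine (sum_le_sum fun i _ => hpt i).trans_eq ?_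
    rw [sum_comm]
    refine sum_congr rfl fun S _ => ?_
    rw [Finset.sum_ite_mem, univ_inter, sum_const, nsmul_eq_mul]
  have hlev : ∑ S : Finset (Fin n), (S.card : ℝ) * (c S * c S) ≤
      ∑ S : Finset (Fin n), (d : ℝ) * (c S * c S) - d * (c ∅ * c ∅) := by
    have h1 : ∑ S : Finset (Fin n), (d : ℝ) * (c S * c S) - d * (c ∅ * c ∅) =
        ∑ S : Finset (Fin n), (if S = ∅ then 0 else (d : ℝ) * (c S * c S)) := by
      rw [← Finset.add_sum_erase _ _ (mem_univ (∅ : Finset (Fin n))), add_sub_cancel_left]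
      rw [← Finset.add_sum_erase (univ : Finset (Finset (Fin n))) _ (mem_univ ∅)]
      simp only [if_true, zero_add]
      refine sum_congr rfl fun S hS => ?_
      rw [if_neg (ne_of_mem_erase hS)]
    rw [h1]
    refine sum_le_sum fun S _ => ?_
    by_cases hS : S = ∅
    · subst hS; simp
    · rw [if_neg hS]
      by_cases hS2 : d < S.card
      · have := cS_eq_zero (t := t) (r := r) hdeg hS2
        rw [← hc] at this
        rw [this]; simp
      · apply mul_le_mul_of_nonneg_right _ (mul_self_nonneg _)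
        exact_mod_cast not_lt.mp hS2
  have e1 : ∑ i, c {i} = r * (polyP (hatR f)).derivative.eval t := sum_cS_singleton t r _
  have e2 : c ∅ = (polyP (hatR f)).eval t := cS_empty t r _
  rw [e1] at hsum
  rw [← mul_sum, hsq, e2] at hlev
  have e3 : r * (r * (polyP (hatR f)).derivative.eval t) =
      (1 - t ^ 2) * (polyP (hatR f)).derivative.eval t := by
    rw [← hr2]; ring
  rw [← e3]
  nlinarith

end main

end Vale.Agent.Lib.P047b
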