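import Mathlib

open Finset Complex

namespace Vale.Agent.Lib.P047b

/-- Nodes of the M. Riesz interpolation formula. -/
noncomputable def theta (d k : ℕ) : ℝ := (2 * (k : ℝ) + 1) * Real.pi / (2 * (d : ℝ))

/-- The unit complex number at a node. -/
noncomputable def Z (d k : ℕ) : ℂ := Complex.exp (I * (theta d k : ℂ))

lemma Z_ne_zero (d k : ℕ) : Z d k ≠ 0 := Complex.exp_ne_zero _

lemma Z_pow_d {d : ℕ} (hd : 0 < d) (k : ℕ) : Z d k ^ d = I * (-1 : ℂ) ^ k := by
  have hd' : (d : ℂ) ≠ 0 := by exact_mod_cast hd.ne'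
  have h1 : Z d k ^ d =
      Complex.exp ((k : ℂ) * (Real.pi * I)) * Complex.exp ((Real.pi / 2 : ℂ) * I) := by
    rw [Z, ← Complex.exp_nat_mul, ← Complex.exp_add]
    congr 1
    simp only [theta]
    push_cast
    field_simp
  rw [h1, Complex.exp_pi_div_two_mul_I, Complex.exp_nat_mul, Complex.exp_pi_mul_I, mul_comm]

lemma Z_pow_two_d {d : ℕ} (hd : 0 < d) (k : ℕ) : Z d k ^ (2 * d) = -1 := by
  rw [mul_comm, pow_mul, Z_pow_d hd, mul_pow, I_sq, ← pow_mul, mul_comm k 2, pow_mul]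
  simp

lemma Z_ne_one {d : ℕ} (hd : 0 < d) (k : ℕ) : Z d k ≠ 1 := by
  intro h
  have := Z_pow_two_d hd k
  rw [h, one_pow] at this
  norm_num at this

lemma Z_sub_one_ne {d : ℕ} (hd : 0 < d) (k : ℕ) : Z d k - 1 ≠ 0 :=
  sub_ne_zero.mpr (Z_ne_one hd k)

lemma Z_reflect {d : ℕ} (hd : 0 < d) {k : ℕ} (hk : k < 2 * d) :
    Z d (2 * d - 1 - k) = (Z d k)⁻¹ := by
  have hd' : (d : ℂ) ≠ 0 := by exact_mod_cast hd.ne'
  have hk' : k ≤ 2 * d - 1 := by omega
  have h2 : 1 ≤ 2 * d := by omega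
  have hcast : ((2 * d - 1 - k : ℕ) : ℂ) = 2 * (d : ℂ) - 1 - (k : ℂ) := by
    rw [Nat.cast_sub hk', Nat.cast_sub h2]
    push_cast; ring
  rw [Z, Z, ← Complex.exp_neg]
  have : I * ((theta d (2 * d - 1 - k) : ℝ) : ℂ) = -(I * ((theta d k : ℝ) : ℂ)) + 2 * Real.pi * I := by
    simp only [theta]
    push_cast
    rw [hcast]
    field_simp
    ring
  rw [this, Complex.exp_add, Complex.exp_two_pi_mul_I, mul_one]

/-- Power sums over the nodes vanish. -/
lemma sum_Z_pow {d : ℕ} (hd : 0 < d) {a : ℕ} (ha : a + 1 < 2 * d) :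
    ∑ k ∈ range (2 * d), Z d k ^ (a + 1) = 0 := by
  have h2d : 2 * d ≠ 0 := by omega
  set ρ : ℂ := Complex.exp (2 * Real.pi * I / ((2 * d : ℕ) : ℂ)) with hρ
  have hprim : IsPrimitiveRoot ρ (2 * d) := Complex.isPrimitiveRoot_exp (2 * d) h2d
  have hd' : (d : ℂ) ≠ 0 := by exact_mod_cast hd.ne'
  have hZ : ∀ k, Z d k = Z d 0 * ρ ^ k := by
    intro k
    rw [Z, Z, hρ, ← Complex.exp_nat_mul, ← Complex.exp_add]
    congr 1
    simp only [theta]
    push_cast
    field_simp
    ring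
  have hr : ρ ^ (a + 1) ≠ 1 := hprim.pow_ne_one_of_pos_of_lt (by omega) ha
  have hsum : ∑ k ∈ range (2 * d), (ρ ^ (a + 1)) ^ k = 0 := by
    rw [geom_sum_eq hr]
    have : (ρ ^ (a + 1)) ^ (2 * d) = 1 := by
      rw [← pow_mul, mul_comm, pow_mul, hprim.pow_eq_one, one_pow]
    rw [this]
    simp
  calc ∑ k ∈ range (2 * d), Z d k ^ (a + 1)
      = ∑ k ∈ range (2 * d), Z d 0 ^ (a + 1) * (ρ ^ (a + 1)) ^ k := by
        refine sum_congr rfl fun k _ => ?_
        rw [hZ k, mul_pow, ← pow_mul, ← pow_mul, mul_comm k]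
    _ = 0 := by rw [← mul_sum, hsum, mul_zero]

/-- First-order node sums. -/
noncomputable def E1 (d a : ℕ) : ℂ := ∑ k ∈ range (2 * d), Z d k ^ (a + 1) / (Z d k - 1)

/-- Second-order node sums. -/
noncomputable def C2 (d a : ℕ) : ℂ := ∑ k ∈ range (2 * d), Z d k ^ (a + 1) / (Z d k - 1) ^ 2

lemma E1_succ {d : ℕ} (hd : 0 < d) (a : ℕ) :
    E1 d (a + 1) = E1 d a + ∑ k ∈ range (2 * d), Z d k ^ (a + 1) := by
  rw [E1, E1, ← sum_add_distrib]
  refine sum_congr rfl fun k _ => ?_
  have := Z_sub_one_ne hd k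
  field_simp
  ring

lemma C2_succ {d : ℕ} (hd : 0 < d) (a : ℕ) :
    C2 d (a + 1) = C2 d a + E1 d a := by
  rw [C2, C2, E1, ← sum_add_distrib]
  refine sum_congr rfl fun k _ => ?_
  have := Z_sub_one_ne hd k
  field_simp
  ring

lemma E1_zero {d : ℕ} (hd : 0 < d) : E1 d 0 = d := by
  have hd' : (d : ℂ) ≠ 0 := by exact_mod_cast hd.ne'
  set X : ℂ := ∑ k ∈ range (2 * d), 1 / (Z d k - 1) with hX
  have h1 : E1 d 0 = 2 * d + X := by
    rw [E1, hX]
    have : (2 * (d : ℂ)) = ∑ k ∈ range (2 * d), (1 : ℂ) := by simp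
    rw [this, ← sum_add_distrib]
    refine sum_congr rfl fun k _ => ?_
    have := Z_sub_one_ne hd k
    field_simp
    ring
  have h2 : X = - E1 d 0 := by
    rw [hX, E1, ← sum_range_reflect, ← sum_neg_distrib]
    refine sum_congr rfl fun k hk => ?_
    have hk' := mem_range.mp hk
    rw [Z_reflect hd hk']
    have h0 := Z_ne_zero d k
    have h1 := Z_sub_one_ne hd k
    have h3 : (Z d k)⁻¹ - 1 = -(Z d k - 1) / Z d k := by
      field_simp
      ring
    rw [h3, zero_add, pow_one]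
    field_simp
  have h3 : 2 * E1 d 0 = 2 * d := by
    rw [h2] at h1
    linear_combination h1
  have h4 : (2 : ℂ) ≠ 0 := two_ne_zero
  exact mul_left_cancel₀ h4 h3

lemma E1_const {d : ℕ} (hd : 0 < d) {a : ℕ} (ha : a + 1 ≤ 2 * d) : E1 d a = d := by
  induction a with
  | zero => exact E1_zero hd
  | succ b ih =>
    rw [E1_succ hd, ih (by omega), sum_Z_pow hd (by omega), add_zero]

lemma C2_eq_add {d : ℕ} (hd : 0 < d) {a : ℕ} (ha : a ≤ 2 * d) :
    C2 d a = C2 d 0 + a * d := by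
  induction a with
  | zero => simp
  | succ b ih =>
    rw [C2_succ hd, ih (by omega), E1_const hd (by omega)]
    push_cast; ring

lemma C2_d {d : ℕ} (hd : 0 < d) : C2 d d = 0 := by
  have h : C2 d d = - C2 d d := by
    conv_lhs => rw [C2, ← sum_range_reflect]
    rw [C2, ← sum_neg_distrib]
    refine sum_congr rfl fun k hk => ?_
    have hk' := mem_range.mp hk
    rw [Z_reflect hd hk']
    set u := Z d k with hu
    have h0 : u ≠ 0 := Z_ne_zero d k
    have h1 : u - 1 ≠ 0 := Z_sub_one_ne hd k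
    have h2 : u ^ (2 * d) = -1 := Z_pow_two_d hd k
    have h3 : u⁻¹ - 1 = -(u - 1) / u := by
      field_simp
      ring
    have h4 : (u⁻¹) ^ (d + 1) = - u ^ (d + 1) / u ^ 2 := by
      have h5 : (u ^ (d + 1)) ≠ 0 := pow_ne_zero _ h0
      have h6 : u ^ (2 * d) * u ^ 2 = (u ^ (d + 1)) * (u ^ (d + 1)) := by ring
      rw [h2] at h6
      rw [inv_pow, eq_div_iff (pow_ne_zero _ h0), inv_mul_eq_div, div_eq_iff h5]
      linear_combination -h6
    rw [h4, h3]
    field_simp
  have h2 : 2 * C2 d d = 0 := by linear_combination h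
  simpa using h2

lemma C2_eq {d : ℕ} (hd : 0 < d) {a : ℕ} (ha : a ≤ 2 * d) :
    C2 d a = ((a : ℂ) - d) * d := by
  have h0 : C2 d 0 = - ((d : ℂ) * d) := by
    have := C2_eq_add hd (a := d) (by omega)
    rw [C2_d hd] at this
    linear_combination -this
  rw [C2_eq_add hd ha, h0]
  ring

/-- Complex form of the Riesz weight. -/
noncomputable def W (d k : ℕ) : ℂ := I * Z d k ^ (d + 1) / ((d : ℂ) * (Z d k - 1) ^ 2)

/-- The moment sums `S m j`. -/
noncomputable def S (d m : ℕ) (j : ℤ) : ℂ :=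
  ∑ k ∈ range (2 * d), W d k * ((Real.sin (theta d k) : ℝ) : ℂ) ^ m * Z d k ^ j

lemma sin_eq (d k : ℕ) :
    ((Real.sin (theta d k) : ℝ) : ℂ) = (Z d k - (Z d k)⁻¹) * (-I / 2) := by
  rw [Complex.ofReal_sin, Complex.sin, Z, ← Complex.exp_neg]
  have e1 : -(theta d k : ℂ) * I = -(I * (theta d k : ℂ)) := by ring
  have e2 : (theta d k : ℂ) * I = I * (theta d k : ℂ) := by ring
  rw [e1, e2]
  ring

lemma S_zero {d : ℕ} (hd : 0 < d) {j : ℤ} (hj : |j| ≤ d) : S d 0 j = I * j := by
  have hd' : (d : ℂ) ≠ 0 := by exact_mod_cast hd.ne'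
  obtain ⟨a, ha⟩ : ∃ a : ℕ, (a : ℤ) = d + j := by
    refine ⟨(d + j).toNat, Int.toNat_of_nonneg ?_⟩
    have := abs_le.mp hj
    omega
  have ha' : a ≤ 2 * d := by
    have := abs_le.mp hj
    omega
  have hsum : S d 0 j = (I / d) * C2 d a := by
    rw [S, C2, mul_sum]
    refine sum_congr rfl fun k _ => ?_
    rw [W, pow_zero, mul_one]
    have h0 := Z_ne_zero d k
    have h1 := Z_sub_one_ne hd k
    have h2 : Z d k ^ (a + 1) = Z d k ^ (d + 1) * Z d k ^ j := by
      rw [← zpow_natCast, ← zpow_natCast, ← zpow_add₀ h0]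
      congr 1
      push_cast
      omega
    rw [h2]
    field_simp
  have hcast : (a : ℂ) = (d : ℂ) + (j : ℂ) := by
    have := congrArg (fun z : ℤ => (z : ℂ)) ha
    simpa using this
  rw [hsum, C2_eq hd ha', hcast]
  field_simp
  ring

lemma S_succ (d m : ℕ) (j : ℤ) :
    S d (m + 1) j = (S d m (j + 1) - S d m (j - 1)) * (-I / 2) := by
  rw [S, S, S, ← sum_sub_distrib, sum_mul]
  refine sum_congr rfl fun k _ => ?_
  have h0 := Z_ne_zero d k
  rw [pow_succ, sin_eq, zpow_add₀ h0, zpow_sub₀ h0, zpow_one]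
  field_simp

lemma S_main {d : ℕ} (hd : 0 < d) (m : ℕ) :
    ∀ j : ℤ, |j| + m ≤ d →
      S d m j = (if m = 0 then I * j else if m = 1 then 1 else 0) := by
  induction m with
  | zero =>
    intro j hj
    simp only [if_true]
    exact S_zero hd (by simpa using hj)
  | succ m ih =>
    intro j hj
    have h1 : |j + 1| + m ≤ d := by
      have := abs_add_le j 1
      simp at this
      push_cast at hj
      omega
    have h2 : |j - 1| + m ≤ d := by
      have := abs_sub j 1
      simp at this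
      push_cast at hj
      omega
    rw [S_succ, ih _ h1, ih _ h2]
    by_cases hm0 : m = 0
    · subst hm0
      have e : (I * ((j + 1 : ℤ) : ℂ) - I * ((j - 1 : ℤ) : ℂ)) * (-I / 2) = 1 := by
        push_cast
        linear_combination (-1 : ℂ) * I_mul_I
      simpa using e
    · by_cases hm1 : m = 1
      · subst hm1
        simp
      · simp [hm0, hm1]

/-- The positive Riesz weights. -/
noncomputable def lam (d k : ℕ) : ℝ := 1 / (4 * (d : ℝ) * Real.sin (theta d k / 2) ^ 2)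

lemma sin_half_pos {d k : ℕ} (hd : 0 < d) (hk : k < 2 * d) : 0 < Real.sin (theta d k / 2) := by
  have hd' : (0 : ℝ) < d := by exact_mod_cast hd
  have hk' : (k : ℝ) + 1 ≤ 2 * d := by exact_mod_cast hk
  apply Real.sin_pos_of_pos_of_lt_pi
  · simp only [theta]
    positivity
  · simp only [theta]
    have hpi := Real.pi_pos
    rw [div_div, div_lt_iff₀ (by positivity)]
    nlinarith

lemma lam_pos {d k : ℕ} (hd : 0 < d) (hk : k < 2 * d) : 0 < lam d k := by
  have hd' : (0 : ℝ) < d := by exact_mod_cast hd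
  have := sin_half_pos hd hk
  simp only [lam]
  positivity

lemma W_eq {d : ℕ} (hd : 0 < d) (k : ℕ) :
    W d k = (((-1 : ℝ) ^ k * lam d k : ℝ) : ℂ) := by
  have hd' : (d : ℂ) ≠ 0 := by exact_mod_cast hd.ne'
  have h0 := Z_ne_zero d k
  have h1 := Z_sub_one_ne hd k
  have hs : Real.sin (theta d k / 2) ^ 2 = 1 / 2 - Real.cos (theta d k) / 2 := by
    rw [Real.sin_sq_eq_half_sub]
    congr 3
    ring
  have hc : Complex.cos (theta d k : ℂ) = (Z d k + (Z d k)⁻¹) / 2 := by
    rw [Complex.cos, Z, ← Complex.exp_neg]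
    have e1 : -(theta d k : ℂ) * I = -(I * (theta d k : ℂ)) := by ring
    have e2 : (theta d k : ℂ) * I = I * (theta d k : ℂ) := by ring
    rw [e1, e2]
  have hlam : ((lam d k : ℝ) : ℂ) = - Z d k / ((d : ℂ) * (Z d k - 1) ^ 2) := by
    simp only [lam]
    rw [hs]
    push_cast
    rw [hc]
    have hne : (Z d k - 1) ^ 2 ≠ 0 := pow_ne_zero _ h1
    have hne2 : 1 / 2 - (Z d k + (Z d k)⁻¹) / 2 / 2 = -(Z d k - 1) ^ 2 / (4 * Z d k) := by
      field_simp
      ring
    rw [hne2]
    field_simp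
  rw [W, pow_succ, Z_pow_d hd]
  push_cast
  rw [hlam]
  field_simp
  exact I_sq

/-- Signed moments of the Riesz weights. -/
theorem moment {d m : ℕ} (hd : 0 < d) (hm : m ≤ d) :
    ∑ k ∈ range (2 * d), (-1 : ℝ) ^ k * lam d k * Real.sin (theta d k) ^ m =
      if m = 1 then 1 else 0 := by
  have h := S_main hd m 0 (by simpa using hm)
  apply Complex.ofReal_injective
  rw [S] at h
  push_cast
  have h2 : ∑ k ∈ range (2 * d), ((-1 : ℂ) ^ k * (lam d k : ℂ) * (Complex.sin (theta d k)) ^ m)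
      = (if m = 0 then I * ((0 : ℤ) : ℂ) else if m = 1 then 1 else 0) := by
    rw [← h]
    refine sum_congr rfl fun k _ => ?_
    rw [W_eq hd, zpow_zero, mul_one]
    push_cast
    rfl
  rw [h2]
  by_cases h0 : m = 0
  · subst h0; simp
  · by_cases h1 : m = 1
    · subst h1; simp
    · simp [h0, h1]

/-- The Riesz weights have total mass `d`. -/
theorem sum_lam {d : ℕ} (hd : 0 < d) : ∑ k ∈ range (2 * d), lam d k = d := by
  have hI : (I : ℂ) ≠ 0 := I_ne_zero
  have h := S_zero hd (j := d) (by simp)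
  rw [S] at h
  have h2 : ∑ k ∈ range (2 * d), I * ((lam d k : ℝ) : ℂ) = I * ((d : ℤ) : ℂ) := by
    rw [← h]
    refine sum_congr rfl fun k _ => ?_
    rw [W_eq hd, pow_zero, mul_one, zpow_natCast, Z_pow_d hd]
    push_cast
    have : ((-1 : ℂ) ^ k) * ((-1 : ℂ) ^ k) = 1 := by
      rw [← mul_pow]; simp
    linear_combination (-(I * (lam d k : ℂ))) * this
  rw [← mul_sum] at h2
  have h3 := mul_left_cancel₀ hI h2
  apply Complex.ofReal_injective
  push_cast
  simpa using h3

open Polynomial in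
/-- M. Riesz interpolation formula for the derivative at the centre, for algebraic polynomials. -/
theorem riesz {d : ℕ} (hd : 0 < d) (P : ℝ[X]) (hP : P.natDegree ≤ d) :
    P.derivative.eval 0 =
      ∑ k ∈ range (2 * d), (-1 : ℝ) ^ k * lam d k * P.eval (Real.sin (theta d k)) := by
  have hlt : P.natDegree < d + 1 := Nat.lt_succ_of_le hP
  have h1 : P.derivative.eval 0 = P.coeff 1 := by
    rw [← Polynomial.coeff_zero_eq_eval_zero, Polynomial.coeff_derivative]
    simp
  have h2 : ∀ k, P.eval (Real.sin (theta d k)) =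
      ∑ m ∈ range (d + 1), P.coeff m * Real.sin (theta d k) ^ m := fun k =>
    Polynomial.eval_eq_sum_range' hlt _
  simp_rw [h2, mul_sum]
  rw [sum_comm]
  have h3 : ∀ m ∈ range (d + 1),
      ∑ k ∈ range (2 * d), (-1 : ℝ) ^ k * lam d k * (P.coeff m * Real.sin (theta d k) ^ m) =
        P.coeff m * (if m = 1 then 1 else 0) := by
    intro m hm
    rw [← moment hd (Nat.lt_succ_iff.mp (mem_range.mp hm)), mul_sum]
    refine sum_congr rfl fun k _ => ?_
    ring
  rw [sum_congr rfl h3, h1]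
  simp only [mul_ite, mul_one, mul_zero]
  rw [Finset.sum_ite_eq' (range (d + 1)) 1 (fun m => P.coeff m)]
  simp [mem_range, hd]

lemma theta_last {d : ℕ} (hd : 0 < d) : theta d (2 * d - 1) = 2 * Real.pi - theta d 0 := by
  have hd' : (d : ℝ) ≠ 0 := by exact_mod_cast hd.ne'
  have : ((2 * d - 1 : ℕ) : ℝ) = 2 * (d : ℝ) - 1 := by
    rw [Nat.cast_sub (by omega)]
    push_cast; ring
  simp only [theta]
  rw [this]
  push_cast
  field_simp
  ring

lemma sin_theta_last {d : ℕ} (hd : 0 < d) :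
    Real.sin (theta d (2 * d - 1)) = - Real.sin (theta d 0) := by
  rw [theta_last hd, Real.sin_two_pi_sub]

lemma lam_last {d : ℕ} (hd : 0 < d) : lam d (2 * d - 1) = lam d 0 := by
  have e : theta d (2 * d - 1) / 2 = Real.pi - theta d 0 / 2 := by
    rw [theta_last hd]; ring
  simp only [lam]
  rw [e, Real.sin_pi_sub]

open Polynomial in
/-- The bound on the derivative at the centre, keeping the two central nodes. -/
theorem riesz_bound {d : ℕ} (hd : 0 < d) (P : ℝ[X]) (hP : P.natDegree ≤ d)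
    (hb : ∀ x, -1 ≤ x → x ≤ 1 → |P.eval x| ≤ 1) :
    P.derivative.eval 0 ≤ d - lam d 0 *
      (2 - (P.eval (Real.sin (theta d 0)) - P.eval (- Real.sin (theta d 0)))) := by
  have hne : 2 * d - 1 ≠ 0 := by omega
  have hlast : 2 * d - 1 ∈ range (2 * d) := mem_range.mpr (by omega)
  have hzero : 0 ∈ range (2 * d) := mem_range.mpr (by omega)
  have hterm : ∀ k ∈ range (2 * d), 0 ≤ lam d k -
      (-1 : ℝ) ^ k * lam d k * P.eval (Real.sin (theta d k)) := by
    intro k hk
    have hl := lam_pos hd (mem_range.mp hk)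
    have hv := hb (Real.sin (theta d k)) (Real.neg_one_le_sin _) (Real.sin_le_one _)
    have hv2 := abs_le.mp hv
    rcases neg_one_pow_eq_or ℝ k with h | h <;> rw [h] <;> nlinarith
  have hsub : ({0, 2 * d - 1} : Finset ℕ) ⊆ range (2 * d) := by
    intro x hx
    simp only [mem_insert, mem_singleton] at hx
    rcases hx with rfl | rfl
    · exact hzero
    · exact hlast
  have h1 := Finset.sum_le_sum_of_subset_of_nonneg (f := fun k => lam d k -
      (-1 : ℝ) ^ k * lam d k * P.eval (Real.sin (theta d k))) hsub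
      (fun k hk _ => hterm k hk)
  rw [Finset.sum_pair (Ne.symm hne), Finset.sum_sub_distrib, sum_lam hd, ← riesz hd P hP,
    sin_theta_last hd, lam_last hd] at h1
  have hodd : (-1 : ℝ) ^ (2 * d - 1) = -1 := by
    apply Odd.neg_one_pow
    exact Nat.Even.sub_odd (by omega) (even_two_mul d) odd_one
  rw [hodd] at h1
  simp only [pow_zero, one_mul] at h1
  linarith

/-- Lower bound for the central weight. -/
lemma lam_zero_ge {d : ℕ} (hd : 0 < d) : (2 / 5 : ℝ) * d ≤ lam d 0 := by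
  have hd' : (0 : ℝ) < d := by exact_mod_cast hd
  have hs := sin_half_pos hd (k := 0) (by omega)
  have hx : Real.sin (theta d 0 / 2) ≤ theta d 0 / 2 := Real.sin_le (by
    simp only [theta]; positivity)
  have ht : theta d 0 / 2 = Real.pi / (4 * d) := by
    simp only [theta]
    push_cast
    field_simp
    ring
  rw [ht] at hx hs
  have hsq : Real.sin (Real.pi / (4 * d)) ^ 2 ≤ (Real.pi / (4 * d)) ^ 2 :=
    pow_le_pow_left₀ hs.le hx 2
  have hpi : Real.pi ^ 2 ≤ 10 := by
    have := Real.pi_lt_d2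
    have h3 := Real.pi_pos
    nlinarith
  have hs2 : 0 < Real.sin (Real.pi / (4 * d)) ^ 2 := by positivity
  have hfin : Real.sin (Real.pi / (4 * d)) ^ 2 ≤ 10 / (4 * d) ^ 2 := by
    calc Real.sin (Real.pi / (4 * d)) ^ 2 ≤ (Real.pi / (4 * d)) ^ 2 := hsq
      _ = Real.pi ^ 2 / (4 * d) ^ 2 := by rw [div_pow]
      _ ≤ 10 / (4 * d) ^ 2 := by
        apply div_le_div_of_nonneg_right hpi (by positivity)
  simp only [lam]
  rw [ht]
  rw [le_div_iff₀ (by positivity)]
  calc 2 / 5 * (d : ℝ) * (4 * d * Real.sin (Real.pi / (4 * d)) ^ 2)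
      ≤ 2 / 5 * d * (4 * d * (10 / (4 * d) ^ 2)) := by
        apply mul_le_mul_of_nonneg_left _ (by positivity)
        apply mul_le_mul_of_nonneg_left hfin (by positivity)
    _ = 1 := by
        field_simp
        ring

end Vale.Agent.Lib.P047b
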