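import Mathlib
import Vale.Agent.Lib.P047b.Riesz

open Finset

namespace Vale.Agent.Lib.P047b

open Polynomial in
/-- Integrated form of the differential inequality. -/
theorem ode_integrated (P : ℝ[X]) (d : ℕ) {τ : ℝ} (hτ0 : 0 < τ) (hτ1 : τ < 1)
    (h1 : ∀ t ∈ Set.Icc (-τ) τ, |P.eval t| < 1)
    (h2 : ∀ t ∈ Set.Icc (-τ) τ, (1 - t ^ 2) * P.derivative.eval t ≤ d * (1 - P.eval t ^ 2)) :
    (1 + P.eval τ) * (1 - P.eval (-τ)) ≤
      (((1 + τ) / (1 - τ)) ^ d) ^ 2 * ((1 - P.eval τ) * (1 + P.eval (-τ))) := by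
  set L : ℝ → ℝ := fun t => Real.log (1 + P.eval t) - Real.log (1 - P.eval t)
      - d * (Real.log (1 + t) - Real.log (1 - t)) with hL
  have hpos : ∀ t ∈ Set.Icc (-τ) τ, 0 < 1 + P.eval t ∧ 0 < 1 - P.eval t := by
    intro t ht
    have := abs_lt.mp (h1 t ht)
    constructor <;> linarith
  have htpos : ∀ t ∈ Set.Icc (-τ) τ, 0 < 1 + t ∧ 0 < 1 - t := by
    intro t ht
    constructor <;> linarith [ht.1, ht.2]
  have hder : ∀ t ∈ Set.Icc (-τ) τ, HasDerivAt L
      (P.derivative.eval t / (1 + P.eval t) - (-P.derivative.eval t) / (1 - P.eval t)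
        - d * (1 / (1 + t) - (-1) / (1 - t))) t := by
    intro t ht
    obtain ⟨p1, p2⟩ := hpos t ht
    obtain ⟨q1, q2⟩ := htpos t ht
    have hP : HasDerivAt (fun s => P.eval s) (P.derivative.eval t) t := P.hasDerivAt t
    have a1 := ((hP.const_add 1).log p1.ne')
    have a2 := ((hP.const_sub 1).log p2.ne')
    have a3 := (((hasDerivAt_id t).const_add 1).log (by simpa using q1.ne'))
    have a4 := (((hasDerivAt_id t).const_sub 1).log (by simpa using q2.ne'))
    exact (a1.sub a2).sub ((a3.sub a4).const_mul (d : ℝ))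
  have hanti : AntitoneOn L (Set.Icc (-τ) τ) := by
    apply antitoneOn_of_deriv_nonpos (convex_Icc _ _)
    · exact fun t ht => (hder t ht).continuousAt.continuousWithinAt
    · intro t ht
      rw [interior_Icc] at ht
      exact (hder t ⟨ht.1.le, ht.2.le⟩).differentiableAt.differentiableWithinAt
    · intro t ht
      rw [interior_Icc] at ht
      have ht' : t ∈ Set.Icc (-τ) τ := ⟨ht.1.le, ht.2.le⟩
      rw [(hder t ht').deriv]
      obtain ⟨p1, p2⟩ := hpos t ht'
      obtain ⟨q1, q2⟩ := htpos t ht'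
      have h3 := h2 t ht'
      have e : P.derivative.eval t / (1 + P.eval t) - (-P.derivative.eval t) / (1 - P.eval t)
          - d * (1 / (1 + t) - (-1) / (1 - t)) =
          2 * ((1 - t ^ 2) * P.derivative.eval t - d * (1 - P.eval t ^ 2)) /
            ((1 + P.eval t) * (1 - P.eval t) * ((1 + t) * (1 - t))) := by
        field_simp
        ring
      rw [e]
      apply div_nonpos_of_nonpos_of_nonneg
      · linarith
      · positivity
  have hm1 : (-τ) ∈ Set.Icc (-τ) τ := ⟨le_refl _, by linarith⟩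
  have hm2 : τ ∈ Set.Icc (-τ) τ := ⟨by linarith, le_refl _⟩
  have hle := hanti hm1 hm2 (by linarith)
  simp only [hL] at hle
  obtain ⟨p1, p2⟩ := hpos τ hm2
  obtain ⟨p3, p4⟩ := hpos (-τ) hm1
  have t1 : 0 < 1 + τ := by linarith
  have t2 : 0 < 1 - τ := by linarith
  have hk : 0 < ((1 + τ) / (1 - τ)) ^ d := by positivity
  rw [← Real.log_le_log_iff (by positivity) (by positivity)]
  rw [Real.log_mul p1.ne' p4.ne', Real.log_mul (by positivity) (by positivity),
    Real.log_mul p2.ne' p3.ne', Real.log_pow, Real.log_pow, Real.log_div t1.ne' t2.ne']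
  have e1 : (1 : ℝ) + -τ = 1 - τ := by ring
  have e2 : (1 : ℝ) - -τ = 1 + τ := by ring
  rw [e1, e2] at hle
  push_cast
  nlinarith

/-- Algebra: from the integrated inequality to a bound for the difference. -/
lemma diff_bound {a b κ : ℝ} (ha : |a| < 1) (hb : |b| < 1) (hκ : 1 ≤ κ)
    (h : (1 + a) * (1 - b) ≤ κ ^ 2 * ((1 - a) * (1 + b))) :
    (a - b) * (κ + 1) ≤ 2 * (κ - 1) := by
  obtain ⟨ha1, ha2⟩ := abs_lt.mp ha
  obtain ⟨hb1, hb2⟩ := abs_lt.mp hb
  set s := (a - b) / 2 with hs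
  set m := (a + b) / 2 with hm
  have hab : a = m + s := by rw [hs, hm]; ring
  have hbb : b = m - s := by rw [hs, hm]; ring
  have hs1 : 0 < 1 - s := by rw [hs]; linarith
  have e1 : (1 + a) * (1 - b) = (1 + s) ^ 2 - m ^ 2 := by rw [hab, hbb]; ring
  have e2 : (1 - a) * (1 + b) = (1 - s) ^ 2 - m ^ 2 := by rw [hab, hbb]; ring
  rw [e1, e2] at h
  have h3 : (1 + s) ^ 2 ≤ (κ * (1 - s)) ^ 2 := by
    have h4 : 0 ≤ (κ ^ 2 - 1) * m ^ 2 := by
      apply mul_nonneg
      · nlinarith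
      · positivity
    nlinarith
  have h5 : 1 + s ≤ κ * (1 - s) := (abs_le_of_sq_le_sq' h3 (by positivity)).2
  have h6 : a - b = 2 * s := by rw [hs]; ring
  rw [h6]
  nlinarith

/-- Elementary comparison of the ratio with an exponential. -/
lemma ratio_le_exp {x : ℝ} (h0 : 0 ≤ x) (h1 : x ≤ 1 / 2) :
    (1 + x) / (1 - x) ≤ Real.exp (2 * x + x ^ 2) := by
  have hpos : 0 < 1 - x := by linarith
  rw [div_le_iff₀ hpos]
  have h2 : 1 + x ≤ Real.exp x := by linarith [Real.add_one_le_exp x]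
  have hy : 0 ≤ x + x ^ 2 := by positivity
  have h3 : 1 + (x + x ^ 2) + (x + x ^ 2) ^ 2 / 2 ≤ Real.exp (x + x ^ 2) :=
    Real.quadratic_le_exp_of_nonneg hy
  have h4 : 1 ≤ Real.exp (x + x ^ 2) * (1 - x) := by
    have h5 : 1 ≤ (1 + (x + x ^ 2) + (x + x ^ 2) ^ 2 / 2) * (1 - x) := by
      have hx2 : 0 ≤ x ^ 2 := by positivity
      have h6 : 0 ≤ x ^ 2 * (1 - x - x ^ 2 - x ^ 3) := by
        apply mul_nonneg hx2
        have : x ^ 2 ≤ 1 / 4 := by nlinarith
        have : x ^ 3 ≤ 1 / 8 := by nlinarith [pow_nonneg h0 2, pow_nonneg h0 3]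
        linarith
      nlinarith
    exact h5.trans (mul_le_mul_of_nonneg_right h3 hpos.le)
  have e : Real.exp (2 * x + x ^ 2) = Real.exp x * Real.exp (x + x ^ 2) := by
    rw [← Real.exp_add]; ring_nf
  rw [e]
  calc 1 + x ≤ Real.exp x := h2
    _ = Real.exp x * 1 := (mul_one _).symm
    _ ≤ Real.exp x * (Real.exp (x + x ^ 2) * (1 - x)) :=
        mul_le_mul_of_nonneg_left h4 (Real.exp_pos _).le
    _ = Real.exp x * Real.exp (x + x ^ 2) * (1 - x) := by ring

lemma exp_le_39 : Real.exp 3.65 ≤ 39 := by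
  have h1 := Real.exp_one_lt_d9
  have h2 : Real.exp (0.0203125 : ℝ) ≤ 1 / (1 - 0.0203125) := by
    have h3 : 1 - (0.0203125 : ℝ) ≤ Real.exp (-(0.0203125 : ℝ)) := Real.one_sub_le_exp_neg _
    rw [Real.exp_neg] at h3
    have h4 : 0 < Real.exp (0.0203125 : ℝ) := Real.exp_pos _
    rw [le_div_iff₀ (by norm_num)]
    have h5 : (1 - (0.0203125 : ℝ)) * Real.exp 0.0203125 ≤ 1 := by
      calc (1 - (0.0203125 : ℝ)) * Real.exp 0.0203125
          ≤ (Real.exp 0.0203125)⁻¹ * Real.exp 0.0203125 :=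
            mul_le_mul_of_nonneg_right h3 h4.le
        _ = 1 := inv_mul_cancel₀ h4.ne'
    linarith
  have e : (3.65 : ℝ) = (3 : ℕ) * 1 + (32 : ℕ) * 0.0203125 := by norm_num
  rw [e, Real.exp_add, Real.exp_nat_mul, Real.exp_nat_mul]
  have h6 : Real.exp 1 ^ 3 ≤ (2.7182818286 : ℝ) ^ 3 :=
    pow_le_pow_left₀ (Real.exp_pos _).le h1.le 3
  have h7 : Real.exp 0.0203125 ^ 32 ≤ (1 / (1 - (0.0203125 : ℝ))) ^ 32 :=
    pow_le_pow_left₀ (Real.exp_pos _).le h2 32
  calc Real.exp 1 ^ 3 * Real.exp 0.0203125 ^ 32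
      ≤ (2.7182818286 : ℝ) ^ 3 * (1 / (1 - (0.0203125 : ℝ))) ^ 32 :=
        mul_le_mul h6 h7 (by positivity) (by positivity)
    _ ≤ 39 := by norm_num

lemma ratio_mono {τ x : ℝ} (h0 : 0 ≤ τ) (h1 : τ ≤ x) (h2 : x < 1) :
    (1 + τ) / (1 - τ) ≤ (1 + x) / (1 - x) := by
  have a : 0 < 1 - τ := by linarith
  have b : 0 < 1 - x := by linarith
  rw [div_le_div_iff₀ a b]
  nlinarith

lemma theta_zero (d : ℕ) : theta d 0 = Real.pi / (2 * d) := by
  simp [theta]

/-- The constant controlling the central pair. -/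
lemma kappa_le {d : ℕ} (hd : 2 ≤ d) :
    ((1 + Real.sin (theta d 0)) / (1 - Real.sin (theta d 0))) ^ d ≤ 39 := by
  have hd0 : (0 : ℝ) < d := by exact_mod_cast (by omega : 0 < d)
  have hpi0 := Real.pi_pos
  have hpi1 := Real.pi_lt_d2
  have hpi2 := Real.pi_gt_three
  rw [theta_zero]
  have hxpos : 0 < Real.pi / (2 * d) := by positivity
  have hxle : Real.pi / (2 * d) ≤ Real.pi / 2 := by
    apply div_le_div_of_nonneg_left hpi0.le (by norm_num)
    have : (1 : ℝ) ≤ d := by exact_mod_cast (by omega : 1 ≤ d)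
    linarith
  have hsnn : 0 ≤ Real.sin (Real.pi / (2 * d)) :=
    Real.sin_nonneg_of_nonneg_of_le_pi hxpos.le (by linarith)
  have hsle : Real.sin (Real.pi / (2 * d)) ≤ Real.pi / (2 * d) := Real.sin_le hxpos.le
  rcases (by omega : d = 2 ∨ d = 3 ∨ d = 4 ∨ 5 ≤ d) with rfl | rfl | rfl | h5
  · have e : Real.pi / (2 * ((2 : ℕ) : ℝ)) = Real.pi / 4 := by norm_num
    rw [e, Real.sin_pi_div_four]
    have hs2 : Real.sqrt 2 ≤ 1.4143 := by
      rw [Real.sqrt_le_left (by norm_num)]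
      norm_num
    have hs3 : 0 ≤ Real.sqrt 2 := Real.sqrt_nonneg _
    have h1 : (1 + Real.sqrt 2 / 2) / (1 - Real.sqrt 2 / 2) ≤
        (1 + 1.4143 / 2) / (1 - 1.4143 / 2) := ratio_mono (by positivity) (by linarith) (by norm_num)
    have h2 : 0 ≤ (1 + Real.sqrt 2 / 2) / (1 - Real.sqrt 2 / 2) := by
      apply div_nonneg (by positivity)
      linarith
    calc ((1 + Real.sqrt 2 / 2) / (1 - Real.sqrt 2 / 2)) ^ 2
        ≤ ((1 + 1.4143 / 2) / (1 - 1.4143 / 2)) ^ 2 := pow_le_pow_left₀ h2 h1 2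
      _ ≤ 39 := by norm_num
  · have e : Real.pi / (2 * ((3 : ℕ) : ℝ)) = Real.pi / 6 := by norm_num
    rw [e, Real.sin_pi_div_six]
    norm_num
  · have e : Real.pi / (2 * ((4 : ℕ) : ℝ)) = Real.pi / 8 := by norm_num
    rw [e] at hsle hsnn ⊢
    have h0 : Real.pi / 8 ≤ 0.39375 := by linarith
    have h1 := ratio_mono hsnn (hsle.trans h0) (by norm_num)
    have h2 : 0 ≤ (1 + Real.sin (Real.pi / 8)) / (1 - Real.sin (Real.pi / 8)) := by
      apply div_nonneg (by positivity)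
      linarith
    calc ((1 + Real.sin (Real.pi / 8)) / (1 - Real.sin (Real.pi / 8))) ^ 4
        ≤ ((1 + 0.39375) / (1 - 0.39375)) ^ 4 := pow_le_pow_left₀ h2 h1 4
      _ ≤ 39 := by norm_num
  · set x := Real.pi / (2 * (d : ℝ)) with hx
    have hd5 : (5 : ℝ) ≤ d := by exact_mod_cast h5
    have hx1 : x ≤ 0.315 := by
      rw [hx, div_le_iff₀ (by positivity)]
      nlinarith
    have h1 := ratio_mono hsnn hsle (by linarith)
    have h2 := ratio_le_exp hxpos.le (by linarith)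
    have h3 : 0 ≤ (1 + Real.sin x) / (1 - Real.sin x) := by
      apply div_nonneg (by positivity)
      linarith
    have h4 : ((1 + Real.sin x) / (1 - Real.sin x)) ^ d ≤ Real.exp (2 * x + x ^ 2) ^ d :=
      pow_le_pow_left₀ h3 (h1.trans h2) d
    rw [← Real.exp_nat_mul] at h4
    refine h4.trans (le_trans (Real.exp_le_exp.mpr ?_) exp_le_39)
    have e : (d : ℝ) * (2 * x + x ^ 2) = Real.pi + Real.pi ^ 2 / (4 * d) := by
      rw [hx]; field_simp; ring
    rw [e]
    have hp2 : Real.pi ^ 2 ≤ 10 := by nlinarith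
    have : Real.pi ^ 2 / (4 * d) ≤ 0.5 := by
      rw [div_le_iff₀ (by positivity)]
      nlinarith
    linarith

open Polynomial in
/-- The polynomial form of the main inequality. -/
theorem poly_main {d : ℕ} (hd : 2 ≤ d) (P : ℝ[X]) (hP : P.natDegree ≤ d)
    (hb : ∀ x, -1 ≤ x → x ≤ 1 → |P.eval x| ≤ 1)
    (h1 : ∀ t, -1 < t → t < 1 → |P.eval t| < 1)
    (h2 : ∀ t, -1 < t → t < 1 → (1 - t ^ 2) * P.derivative.eval t ≤ d * (1 - P.eval t ^ 2)) :
    P.derivative.eval 0 ≤ (24 / 25 : ℝ) * d := by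
  have hd0 : 0 < d := by omega
  have hdr : (0 : ℝ) < d := by exact_mod_cast hd0
  set τ := Real.sin (theta d 0) with hτ
  have hthpos : 0 < theta d 0 := by
    rw [theta_zero]; positivity
  have hthle : theta d 0 ≤ Real.pi / 4 := by
    rw [theta_zero]
    apply div_le_div_of_nonneg_left Real.pi_pos.le (by norm_num)
    have : (2 : ℝ) ≤ d := by exact_mod_cast hd
    linarith
  have hτ0 : 0 < τ := Real.sin_pos_of_pos_of_lt_pi hthpos (by linarith [Real.pi_pos])
  have hτ1 : τ < 1 := by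
    have h3 : τ ≤ Real.sin (Real.pi / 4) :=
      Real.sin_le_sin_of_le_of_le_pi_div_two (by linarith [Real.pi_pos]) (by linarith [Real.pi_pos]) hthle
    rw [Real.sin_pi_div_four] at h3
    have h4 : Real.sqrt 2 < 2 := by
      rw [Real.sqrt_lt' (by norm_num)]; norm_num
    linarith
  have hint := ode_integrated P d hτ0 hτ1
    (fun t ht => h1 t (by linarith [ht.1]) (by linarith [ht.2]))
    (fun t ht => h2 t (by linarith [ht.1]) (by linarith [ht.2]))
  have hκ1 : 1 ≤ ((1 + τ) / (1 - τ)) ^ d := by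
    apply one_le_pow₀
    rw [le_div_iff₀ (by linarith)]
    linarith
  have ha := h1 τ (by linarith) hτ1
  have hb' := h1 (-τ) (by linarith) (by linarith)
  have hdiff := diff_bound ha hb' hκ1 hint
  have hκ39 : ((1 + τ) / (1 - τ)) ^ d ≤ 39 := kappa_le hd
  set κ := ((1 + τ) / (1 - τ)) ^ d with hκ
  have h5 : P.eval τ - P.eval (-τ) ≤ 19 / 10 := by
    have hk2 : 0 < κ + 1 := by linarith
    by_contra hcon
    push_neg at hcon
    nlinarith
  have hr := riesz_bound hd0 P hP hb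
  have hl := lam_zero_ge hd0
  rw [← hτ] at hr
  have h6 : 1 / 10 ≤ 2 - (P.eval τ - P.eval (-τ)) := by linarith
  have h7 : (2 / 5 : ℝ) * d * (1 / 10) ≤ lam d 0 * (2 - (P.eval τ - P.eval (-τ))) :=
    mul_le_mul hl h6 (by norm_num) (by have := lam_pos hd0 (k := 0) (by omega); linarith)
  linarith

end Vale.Agent.Lib.P047b
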