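import Mathlib
import Vale.Agent.Lib.P047b.Ode
import Vale.Agent.Lib.P047b.Boolean

open Finset Polynomial

namespace Vale.Agent.Lib.P047b

variable {n : ℕ}

lemma hat_singleton (f : (Fin n → ℤˣ) → ℝ) (i : Fin n) :
    cS 0 1 (hatR f) {i} = hatR f {i} := by
  simp only [cS]
  rw [Finset.sum_eq_single {i}]
  · simp
  · intro U _ hU
    split_ifs with h
    · have h1 : 1 < U.card := by
        have h2 : ({i} : Finset (Fin n)).card ≤ U.card := card_le_card h
        rw [card_singleton] at h2
        rcases Nat.lt_or_ge 1 U.card with h3 | h3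
        · exact h3
        · have h4 : U.card = 1 := by omega
          exact absurd ((eq_of_subset_of_card_le h (by simp [h4])).symm) hU
      have h5 : U.card - 1 ≠ 0 := by omega
      simp [h5]
    · rfl
  · intro h; exact absurd (mem_univ _) h

/-- The level-one sum is the derivative at the centre. -/
lemma deriv_zero_eq (f : (Fin n → ℤˣ) → ℝ) :
    (polyP (hatR f)).derivative.eval 0 = ∑ i, hatR f {i} := by
  have h := sum_cS_singleton (0 : ℝ) 1 (hatR f)
  rw [one_mul] at h
  rw [← h]
  exact sum_congr rfl fun i _ => hat_singleton f i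

lemma chi_all_one (S : Finset (Fin n)) : chi S (fun _ => (1 : ℤˣ)) = 1 := by
  simp [chi]

lemma chi_all_neg_one (S : Finset (Fin n)) :
    chi S (fun _ => (-1 : ℤˣ)) = (-1) ^ S.card := by
  simp [chi]

/-- Main real-valued form. -/
theorem boolean_main {d : ℕ} (hd : 2 ≤ d) {f : (Fin n → ℤˣ) → ℝ}
    (hf : ∀ x, f x = 1 ∨ f x = -1) (hdeg : ∀ S, d < S.card → hatR f S = 0) :
    ∑ i, hatR f {i} ≤ (24 / 25 : ℝ) * d := by
  rw [← deriv_zero_eq]
  set P := polyP (hatR f) with hP
  by_cases hconst : ∃ x0 x1, f x0 = -1 ∧ f x1 = 1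
  · obtain ⟨x0, x1, h0, h1⟩ := hconst
    -- strict interior bound
    have hin : ∀ t, -1 < t → t < 1 → |P.eval t| < 1 := by
      intro t ht0 ht1
      have h1t : 0 < 1 - t ^ 2 := by nlinarith
      have hr0 : Real.sqrt (1 - t ^ 2) ≠ 0 := (Real.sqrt_pos.mpr h1t).ne'
      have hr2 : Real.sqrt (1 - t ^ 2) ^ 2 = 1 - t ^ 2 := Real.sq_sqrt h1t.le
      have hmean := eval_eq_mean hr0 hr2 f
      have hm := sum_mu (n := n) hr0 hr2
      have hu1 : (0 : ℝ) < 1 - ∑ x, mu t x * f x := by
        have : 1 - ∑ x, mu t x * f x = ∑ x, mu t x * (1 - f x) := by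
          simp_rw [mul_sub, mul_one]
          rw [sum_sub_distrib, hm]
        rw [this]
        apply sum_pos'
        · intro x _
          apply mul_nonneg (mu_pos ht0 ht1 x).le
          rcases hf x with h | h <;> rw [h] <;> norm_num
        · refine ⟨x0, mem_univ _, mul_pos (mu_pos ht0 ht1 x0) ?_⟩
          rw [h0]; norm_num
      have hu2 : (0 : ℝ) < 1 + ∑ x, mu t x * f x := by
        have : 1 + ∑ x, mu t x * f x = ∑ x, mu t x * (1 + f x) := by
          simp_rw [mul_add, mul_one]
          rw [sum_add_distrib, hm]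
        rw [this]
        apply sum_pos'
        · intro x _
          apply mul_nonneg (mu_pos ht0 ht1 x).le
          rcases hf x with h | h <;> rw [h] <;> norm_num
        · refine ⟨x1, mem_univ _, mul_pos (mu_pos ht0 ht1 x1) ?_⟩
          rw [h1]; norm_num
      rw [hP, hmean, abs_lt]
      constructor <;> linarith
    have hone : P.eval 1 = f (fun _ => 1) := by
      rw [hP, polyP_eval, fourier_inversion f (fun _ => 1)]
      refine sum_congr rfl fun S _ => ?_
      rw [chi_all_one]; simp
    have hmone : P.eval (-1) = f (fun _ => -1) := by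
      rw [hP, polyP_eval, fourier_inversion f (fun _ => -1)]
      refine sum_congr rfl fun S _ => ?_
      rw [chi_all_neg_one]
    have hcl : ∀ x, -1 ≤ x → x ≤ 1 → |P.eval x| ≤ 1 := by
      intro x hx0 hx1
      rcases hx0.lt_or_eq with h2 | h2
      · rcases hx1.lt_or_eq with h3 | h3
        · exact (hin x h2 h3).le
        · rw [h3, hone]
          rcases hf (fun _ => 1) with h | h <;> rw [h] <;> norm_num
      · rw [← h2, hmone]
        rcases hf (fun _ => -1) with h | h <;> rw [h] <;> norm_num
    refine poly_main hd P (polyP_natDegree hdeg) hcl hin ?_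
    intro t ht0 ht1
    have h1t : 0 < 1 - t ^ 2 := by nlinarith
    have hr0 : 0 < Real.sqrt (1 - t ^ 2) := Real.sqrt_pos.mpr h1t
    have hr2 : Real.sqrt (1 - t ^ 2) ^ 2 = 1 - t ^ 2 := Real.sq_sqrt h1t.le
    exact influence_ineq hr0 hr2 hf hdeg ht0 ht1
  · -- constant function
    push Not at hconst
    have hconst2 : (∀ x, f x = 1) ∨ (∀ x, f x = -1) := by
      by_cases h : ∃ x0, f x0 = -1
      · obtain ⟨x0, h0⟩ := h
        right
        intro x
        rcases hf x with h1 | h1
        · exact absurd h1 (hconst x0 x h0)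
        · exact h1
      · left
        push Not at h
        intro x
        rcases hf x with h1 | h1
        · exact h1
        · exact absurd h1 (h x)
    have hsum0 : ∀ i : Fin n, ∑ x : Fin n → ℤˣ, chi {i} x = 0 := by
      intro i
      have h1 : ∀ x : Fin n → ℤˣ, chi {i} x = ∏ j, (if j = i then sg (x j) else 1) := by
        intro x
        rw [Finset.prod_ite_eq' univ i]
        simp [chi]
      simp_rw [h1]
      rw [sum_prod_coord (fun j u => if j = i then sg u else 1)]
      apply prod_eq_zero (mem_univ i)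
      simp
    have hzero : ∑ i, hatR f {i} = 0 := by
      apply sum_eq_zero
      intro i _
      simp only [hatR]
      rcases hconst2 with h | h
      · simp_rw [h, one_mul, hsum0]; simp
      · simp_rw [h, neg_mul, one_mul, sum_neg_distrib, hsum0]; simp
    rw [deriv_zero_eq, hzero]
    positivity

end Vale.Agent.Lib.P047b
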